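import Vale.Agent.P343.Main

open Vale.Agent.P343 in
theorem Vale.Agent.Results.P343.Sakoda.result :
    (¬∃ p : Polynomial ℕ, ∀ (A Q : Type) [Fintype A] [Fintype Q] (M : TwoNFA A Q),
      ∃ (Q' : Type) (_ : Fintype Q') (B : TwoNFA A Q'), B.Deterministic ∧
        Fintype.card Q' ≤ p.eval (Fintype.card Q) ∧ ∀ w, B.Accepts w ↔ M.Accepts w) ∧
    (¬∃ p : Polynomial ℕ, ∀ (A Q : Type) [Fintype A] [Fintype Q] (M : TwoNFA A Q),
      M.OneWay → ∃ (Q' : Type) (_ : Fintype Q') (B : TwoNFA A Q'), B.Deterministic ∧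
        Fintype.card Q' ≤ p.eval (Fintype.card Q) ∧ ∀ w, B.Accepts w ↔ M.Accepts w) :=
  ⟨fun ⟨p, hp⟩ => no_poly ⟨p, fun A Q _ _ M _ => hp A Q M⟩, no_poly⟩
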